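/-
S0109 (row 82): statement stubs of every module, namespace `...OTStab.BP`. `sorry` stubs only, NEVER
imported by the final proofs. While a module is in progress, others import this file to code against
its interface; the real theorem has the same name WITHOUT `BP.` in `...OTStab`.
-/
import Crest.Agent.Lib.OTStab.Defs

set_option autoImplicit false

open MeasureTheory Set
open scoped ENNReal NNReal RealInnerProductSpace

namespace Crest.Agent.Lib.OTStab.BP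

open Crest.Agent.Lib.OTStab

variable {d : ℕ}

/-! ### T1 `Prekopa.lean` : Prekopa-Leindler (midpoint form, Lebesgue measure on `EE d`). -/

theorem prekopa_leindler (f g h : EE d → ℝ≥0∞) (hf : Measurable f) (hg : Measurable g)
    (hh : Measurable h) (H : ∀ x y, f x * g y ≤ h ((1 / 2 : ℝ) • (x + y)) ^ 2) :
    (∫⁻ x, f x) * (∫⁻ x, g x) ≤ (∫⁻ x, h x) ^ 2 := sorry

/-! ### T2 `Basic.lean`, `Semi.lean` : basic API and the semi-discrete problem. -/

section Basic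
variable {K : Set (EE d)}

theorem rho_isProb (hK : Body K) : IsProbabilityMeasure (rho K) := sorry
theorem ae_mem_rho (hK : Body K) : ∀ᵐ x ∂(rho K), x ∈ K := sorry
theorem rho_apply (hK : Body K) (A : Set (EE d)) (hA : MeasurableSet A) :
    rho K A = (volume K)⁻¹ * volume (A ∩ K) := sorry
theorem rho_absCont (hK : Body K) : rho K ≪ volume := sorry
/-- bounded on `K` and a.e.-measurable implies integrable. -/
theorem integrable_of_bound_on (hK : Body K) {f : EE d → ℝ} (hm : AEStronglyMeasurable f (rho K))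
    (C : ℝ) (hC : ∀ x ∈ K, |f x| ≤ C) : Integrable f (rho K) := sorry
theorem isDens_one (hK : Body K) : IsDens K (fun _ => 1) := sorry
end Basic

section Semi
variable {K : Set (EE d)} {ι : Type*} [Fintype ι]

theorem aff_le_phi (y : ι → EE d) (ψ : ι → ℝ) (i : ι) (x : EE d) : aff y ψ i x ≤ phi y ψ x := sorry
theorem exists_aff_eq_phi [Nonempty ι] (y : ι → EE d) (ψ : ι → ℝ) (x : EE d) :
    ∃ i, aff y ψ i x = phi y ψ x := sorry
theorem continuous_phi [Nonempty ι] (y : ι → EE d) (ψ : ι → ℝ) : Continuous (phi y ψ) := sorry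
theorem abs_phi_sub_le [Nonempty ι] (y : ι → EE d) (ψ ψ' : ι → ℝ) (C : ℝ) (h : ∀ i, |ψ i - ψ' i| ≤ C)
    (x : EE d) : |phi y ψ x - phi y ψ' x| ≤ C := sorry
theorem mem_cell_iff (y : ι → EE d) (ψ : ι → ℝ) (i : ι) (x : EE d) :
    x ∈ cell y ψ i ↔ aff y ψ i x = phi y ψ x := sorry
theorem isClosed_cell (y : ι → EE d) (ψ : ι → ℝ) (i : ι) : IsClosed (cell y ψ i) := sorry
/-- two cells of distinct atoms meet in a Lebesgue-null set -/
theorem volume_cell_inter (y : ι → EE d) (ψ : ι → ℝ) {i j : ι} (h : y i ≠ y j) :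
    volume (cell y ψ i ∩ cell y ψ j) = 0 := sorry

/-- measurable selection of a maximising index -/
theorem exists_sel [Nonempty ι] (y : ι → EE d) (ψ : ι → ℝ) :
    ∃ s : EE d → ι, (∀ i, MeasurableSet (s ⁻¹' {i})) ∧ ∀ x, x ∈ cell y ψ (s x) := sorry

/-- for distinct atoms the cells partition `rho K`-almost everything -/
theorem sum_setIntegral_cell [Nonempty ι] (hK : Body K) {y : ι → EE d} (hy : Function.Injective y) (ψ : ι → ℝ)
    {f : EE d → ℝ} (hf : Integrable f (rho K)) :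
    ∑ i, ∫ x in cell y ψ i, f x ∂(rho K) = ∫ x, f x ∂(rho K) := sorry

/-- minimisers exist, for any atoms (duplicates allowed). -/
theorem exists_isMinFn (hK : Body K) {pm : ι → ℝ} (hpm : Masses pm) (y : ι → EE d) {σ : EE d → ℝ}
    (hσ : IsDens K σ) : ∃ ψ, IsMinFn K pm y σ ψ := sorry

/-- for injective atoms, minimisers solve the transport problem. -/
theorem solved_of_isMinFn (hK : Body K) {pm : ι → ℝ} (hpm : Masses pm) {y : ι → EE d}
    (hy : Function.Injective y) {σ : EE d → ℝ} (hσ : IsDens K σ) {ψ : ι → ℝ}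
    (h : IsMinFn K pm y σ ψ) : Solved K pm y σ ψ := sorry

/-- weak duality: the partition into cells of a solved problem is a competitor for any atoms `y'`. -/
theorem corr_le_Fn (hK : Body K) {pm : ι → ℝ} (hpm : Masses pm) {y : ι → EE d}
    (hy : Function.Injective y) {σ : EE d → ℝ} (hσ : IsDens K σ) {ψ : ι → ℝ}
    (h : Solved K pm y σ ψ) (y' : ι → EE d) (ψ' : ι → ℝ) :
    ∑ i, ∫ x in cell y ψ i, ⟪x, y' i⟫ * σ x ∂(rho K) ≤ Fn K pm y' σ ψ' := sorry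

/-- equality at the solution. -/
theorem Fn_eq_corr (hK : Body K) {pm : ι → ℝ} (hpm : Masses pm) {y : ι → EE d}
    (hy : Function.Injective y) {σ : EE d → ℝ} (hσ : IsDens K σ) {ψ : ι → ℝ}
    (h : Solved K pm y σ ψ) :
    Fn K pm y σ ψ = ∑ i, ∫ x in cell y ψ i, ⟪x, y i⟫ * σ x ∂(rho K) := sorry

/-- two minimisers have potentials differing by a constant on `K`. -/
theorem phi_eq_add_const (hK : Body K) {pm : ι → ℝ} (hpm : Masses pm) (y : ι → EE d) {σ : EE d → ℝ}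
    (hσ : IsDens K σ) {ψ ψ' : ι → ℝ} (h : IsMinFn K pm y σ ψ) (h' : IsMinFn K pm y σ ψ') :
    ∃ c : ℝ, ∀ x ∈ K, phi y ψ x = phi y ψ' x + c := sorry

/-- stability of minimisers as the density tends to `1`: along `σ_ε = 1 + ε w`, `ε → 0`, the values
`∫ phi w` of minimisers converge to the value of any minimiser at `σ = 1`, when `∫ w = 0`. Stated as: for
every `η > 0` there is `ε₀` such that for `0 < ε < ε₀` and minimisers at `1 + ε w` the value is within `η`. -/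
theorem tendsto_integral_phi_of_isMinFn (hK : Body K) {pm : ι → ℝ} (hpm : Masses pm) (y : ι → EE d)
    {w : EE d → ℝ} (hw : Measurable w) (B : ℝ) (hB : ∀ x, |w x| ≤ B) (hw0 : ∫ x, w x ∂(rho K) = 0)
    {ψ₀ : ι → ℝ} (h₀ : IsMinFn K pm y (fun _ => 1) ψ₀) {η : ℝ} (hη : 0 < η) :
    ∃ ε₀ > 0, ∀ ε, 0 < ε → ε < ε₀ → ∀ ψ, IsMinFn K pm y (fun x => 1 + ε * w x) ψ →
      |∫ x, phi y ψ x * w x ∂(rho K) - ∫ x, phi y ψ₀ x * w x ∂(rho K)| < η := sorry

end Semi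

/-! ### T3 `Key.lean` : the key inequality (Prekopa-Leindler with weight `exp (-|x-c|²/(2κ))`). -/

theorem key_inequality {K : Set (EE d)} (hK : Body K) {ι : Type*} [Fintype ι] {pm : ι → ℝ}
    (hpm : Masses pm) {y : ι → EE d} (hy : Function.Injective y) (c : EE d) {R : ℝ} (hR0 : 0 < R)
    (hR : ∀ x ∈ K, ‖x - c‖ ≤ R) {w : EE d → ℝ} {ε : ℝ} (hε : 0 < ε)
    (hσ : IsDens K (fun x => 1 + ε * w x)) {ψ₀ ψ₁ : ι → ℝ}
    (h₀ : Solved K pm y (fun _ => 1) ψ₀) (h₁ : Solved K pm y (fun x => 1 + ε * w x) ψ₁)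
    (v : ι → EE d) :
    ∑ i, ∫ x in cell y ψ₁ i, ⟪x, v i⟫ * (1 + ε * w x) ∂(rho K)
        - ∑ i, ∫ x in cell y ψ₀ i, ⟪x, v i⟫ ∂(rho K)
      ≤ 100 * R * ε * Real.sqrt (∫ x, w x ^ 2 ∂(rho K)) * Real.sqrt (∑ i, pm i * ‖v i‖ ^ 2) := sorry

/-! ### T4 `Var.lean` : the variance bound. -/

/-- Real-analysis lemma of T4: telescoping for two convex functions with subgradients on a cofinite set. -/
theorem telescoping_convex (C₀ C₁ G₀ G₁ : ℝ → ℝ) (Good : Set ℝ) (hGood : (Good ᶜ).Finite)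
    (M B Lip : ℝ) (hM : 0 ≤ M)
    (hC₀ : ∀ s ∈ Good ∩ Icc 0 1, ∀ s' ∈ Icc (0 : ℝ) 1, C₀ s + (s' - s) * G₀ s ≤ C₀ s')
    (hC₁ : ∀ s ∈ Good ∩ Icc 0 1, ∀ s' ∈ Icc (0 : ℝ) 1, C₁ s + (s' - s) * G₁ s ≤ C₁ s')
    (hG : ∀ s ∈ Good ∩ Icc 0 1, G₁ s - G₀ s ≤ M)
    (hB : ∀ s ∈ Good ∩ Icc 0 1, |G₀ s| ≤ B)
    (hL₀ : ∀ s ∈ Icc (0 : ℝ) 1, ∀ s' ∈ Icc (0 : ℝ) 1, |C₀ s - C₀ s'| ≤ Lip * |s - s'|)
    (hL₁ : ∀ s ∈ Icc (0 : ℝ) 1, ∀ s' ∈ Icc (0 : ℝ) 1, |C₁ s - C₁ s'| ≤ Lip * |s - s'|) :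
    (C₁ 1 - C₁ 0) - (C₀ 1 - C₀ 0) ≤ M := sorry

/-- `Var_ρ (φ_z - φ_y) ≤ (100 R)² Σ pm_i ‖y_i - z_i‖²`, for labelled atoms whose pairs are distinct. -/
theorem var_bound {K : Set (EE d)} (hK : Body K) {ι : Type*} [Fintype ι] {pm : ι → ℝ}
    (hpm : Masses pm) {y z : ι → EE d} (hpair : Function.Injective (fun i => (y i, z i)))
    (c : EE d) {R : ℝ} (hR0 : 0 < R) (hR : ∀ x ∈ K, ‖x - c‖ ≤ R) {ψ₀ ψ₁ : ι → ℝ}
    (h₀ : IsMinFn K pm y (fun _ => 1) ψ₀) (h₁ : IsMinFn K pm z (fun _ => 1) ψ₁) :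
    varRho K (fun x => phi z ψ₁ x - phi y ψ₀ x) ≤ (100 * R) ^ 2 * ∑ i, pm i * ‖y i - z i‖ ^ 2 := sorry

/-! ### T5 `GN.lean` : difference-quotient estimates for convex functions on `K`. -/

/-- Subgradient selection of `f` on `K`. -/
def IsSubgradOn (K : Set (EE d)) (f : EE d → ℝ) (T : EE d → EE d) : Prop :=
  ∀ x ∈ K, ∀ x' ∈ K, f x + ⟪x' - x, T x⟫ ≤ f x'

/-- Gagliardo-Nirenberg: `‖T_f - T_g‖²_{L²} ≲ Var(f-g)^{1/3}`, constant depending only on `K` and `L`. -/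
theorem gn_bound {K : Set (EE d)} (hK : Body K) (L : ℝ) (hL : 0 ≤ L) :
    ∃ C : ℝ, 0 ≤ C ∧ ∀ (f g : EE d → ℝ) (Tf Tg : EE d → EE d),
      Continuous f → Continuous g → Measurable Tf → Measurable Tg →
      IsSubgradOn K f Tf → IsSubgradOn K g Tg →
      (∀ x ∈ K, ‖Tf x‖ ≤ L) → (∀ x ∈ K, ‖Tg x‖ ≤ L) →
      ∫ x, ‖Tf x - Tg x‖ ^ 2 ∂(rho K) ≤ C * (varRho K (fun x => g x - f x)) ^ (1 / 3 : ℝ) := sorry

/-- almost-subgradients are close to the subgradient selection, in `L²`. -/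
theorem gap_bound {K : Set (EE d)} (hK : Body K) (L : ℝ) (hL : 0 ≤ L) :
    ∃ C : ℝ, 0 ≤ C ∧ ∀ (f : EE d → ℝ) (Tf a : EE d → EE d) (e : EE d → ℝ),
      Continuous f → Measurable Tf → Measurable a → Measurable e →
      IsSubgradOn K f Tf → (∀ x ∈ K, ‖Tf x‖ ≤ L) → (∀ x ∈ K, ‖a x‖ ≤ L) →
      (∀ x ∈ K, 0 ≤ e x) → (∃ E, ∀ x ∈ K, e x ≤ E) →
      (∀ x ∈ K, ∀ x' ∈ K, f x + ⟪x' - x, a x⟫ - e x ≤ f x') →
      ∫ x, ‖a x - Tf x‖ ^ 2 ∂(rho K) ≤ C * Real.sqrt (∫ x, e x ∂(rho K)) := sorry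

/-! ### T6 `Approx.lean` : general targets. -/

/-- Noble-type lemma: an atomless finite measure can be pushed to any measure with the same mass. -/
theorem exists_map_eq_of_noAtoms (α β : Measure (EE d)) [IsFiniteMeasure α] [IsFiniteMeasure β]
    [NullSingletonClass α] (h : α Set.univ = β Set.univ) : ∃ S : EE d → EE d, Measurable S ∧ α.map S = β := sorry

/-- finite partition of a compact set into pieces of small radius around points of the set -/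
theorem exists_partition {Y : Set (EE d)} (hY : IsCompact Y) {η : ℝ} (hη : 0 < η) :
    ∃ (n : ℕ) (A : Fin n → Set (EE d)) (a : Fin n → EE d),
      (∀ j, MeasurableSet (A j)) ∧ Pairwise (Function.onFun Disjoint A) ∧ Y ⊆ ⋃ j, A j ∧
      (∀ j, a j ∈ A j ∧ a j ∈ Y) ∧ (∀ j, ∀ y ∈ A j, ‖y - a j‖ ≤ η) := sorry

/-- Comparison of a general optimal map with the semi-discrete map of an atomic approximation. -/
theorem approx_optimal {K Y : Set (EE d)} (hK : Body K) (hY : IsCompact Y) :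
    ∃ C : ℝ, 0 ≤ C ∧ ∀ (μ : Measure (EE d)) (T : EE d → EE d),
      Crest.AnalysisR.OT.IsProbabilityOn Y μ → Crest.AnalysisR.OT.IsOptimalMap (rho K) μ T →
      ∀ (J : Type) [Fintype J] (A : J → Set (EE d)) (a : J → EE d) (η : ℝ), 0 < η →
      (∀ j, MeasurableSet (A j)) → Pairwise (Function.onFun Disjoint A) → μ (⋃ j, A j)ᶜ = 0 →
      (∀ j, a j ∈ Y) → Function.Injective a → (∀ j, ∀ y ∈ A j, ‖y - a j‖ ≤ η) →
      ∀ (pm : J → ℝ), Masses pm → (∀ j, pm j = (μ (A j)).toReal) →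
      ∀ (ψ : J → ℝ), Solved K pm a (fun _ => 1) ψ →
      ∀ (s : EE d → J), (∀ j, MeasurableSet (s ⁻¹' {j})) → (∀ x, x ∈ cell a ψ (s x)) →
      ∫ x, ‖T x - a (s x)‖ ^ 2 ∂(rho K) ≤ C * Real.sqrt η := sorry

end Crest.Agent.Lib.OTStab.BP
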